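import Vale.Agent.P281Z.Defs

/-!
# P281Z: the blocks and the assembly of the core inequality
-/

open scoped Manifold ContDiff Topology
open Set Filter
open Vale.Agent.P272.K Vale.Agent.P285.H281.FD
open Vale.Agent.P277Z (Hol Mer gen)
open Vale.Agent.P277Z.Slc (lin Ind LEq Snc St)
open Vale.Agent.P277.HD (pull)

noncomputable section

namespace Vale.Agent.P281Z

/-! ### Tools -/

/-- resolution of the closure of `A - Z(I)`, with principalization of `I` -/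
def RES : Prop :=
  ∀ (N n : ℕ) (M : Mf N) (A : Set M.X) (I : Idl N M.X), An N A → SubM N n (A \ I.Z) →
    ∃ (V : Mf n) (π : V.X → M.X) (r : ℕ) (E : Fin r → Set V.X), Over n N π A I.Z ∧ Snc n E ∧
      π ⁻¹' I.Z = ⋃ l, E l ∧ Prin n N π I E ∧ (M.Kah → V.Kah) ∧
      ∀ L : Bd M.X, IsLB N L → Pos N L → ∃ L' : Bd V.X, IsLB n L' ∧ Pos n L'

/-- every closed analytic set is the zero set of an ideal -/
def IDL : Prop := ∀ (N : ℕ) (M : Mf N) (B : Set M.X), An N B → ∃ I : Idl N M.X, I.Z = B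

/-- closed submanifolds -/
def SUBM : Prop :=
  ∀ (N n : ℕ) (M : Mf N) (S : Set M.X), IsClosed S → SubM N n S →
    ∃ (V : Mf n) (i : V.X → M.X), Emb n N i S

/-- an immersed manifold inherits a Kähler metric -/
def KIM : Prop :=
  ∀ (N n : ℕ) (M : Mf N) (V : Mf n) (i : V.X → M.X), HolM n N i → (∀ x, Imm n N i x) →
    M.Kah → V.Kah

/-- the proper mapping theorem -/
def REM : Prop :=
  ∀ (n p : ℕ) (V : Mf n) (Y : Mf p) (f : V.X → Y.X) (A : Set V.X), HolM n p f → An n A →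
    An p (f '' A)

/-- the image of a connected manifold is generically a manifold, of dimension the rank -/
def IMG : Prop :=
  ∀ (n p : ℕ) (V : Mf n) (Y : Mf p) (f : V.X → Y.X), HolM n p f → ConnectedSpace V.X →
    ∃ (ρ : ℕ) (B : Set Y.X), An p B ∧ Dense (f ⁻¹' B)ᶜ ∧ SubM p ρ (range f \ B) ∧
      ∀ x, f x ∉ B → ∀ (e : Chart n V.X) (e' : Chart p Y.X), At e x → At e' (f x) →
        Module.finrank ℂ (LinearMap.range (df f e e' x : Cm n →ₗ[ℂ] Cm p)) = ρ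

/-- `f` is, along the fibre of `y`, a submersion on all the strata of `G` -/
def RegAt (n p : ℕ) {X Y : Type} [TopologicalSpace X] [ChartedSpace (Cm n) X] [TopologicalSpace Y]
    [ChartedSpace (Cm p) Y] (f : X → Y) {κ : Type} (G : κ → Set X) (y : Y) : Prop :=
  ∀ x, f x = y → ∀ e' : Chart p Y, At e' y → ∀ ζ : κ → X → ℂ, (∀ l, LEq n (G l) x (ζ l)) →
    Ind n (Sum.elim (fun l : {l // x ∈ G l} => ζ l) fun (a : Fin p) z => e' (f z) a) x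

/-- generic smoothness on all strata, off a nowhere dense analytic set -/
def GEN : Prop :=
  ∀ (n p : ℕ) (V : Mf n) (Y : Mf p) (f : V.X → Y.X) (κ : Type) [Fintype κ] (G : κ → Set V.X),
    HolM n p f → Snc n G → ∃ Q, Thin p Q ∧ ∀ y ∉ Q, RegAt n p f G y

/-- log models exist, and any thin analytic set can be put into the divisors -/
def LOGM : Prop :=
  ∀ (n : ℕ) (V V' : Mf n) (u : V'.X → V.X) (B : Set V.X) (κ : Type) [Fintype κ] (G : κ → Set V.X)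
    (δ : κ → ℚ) (B' : Set V'.X), Modif n u B → Snc n G → (∀ l, 0 ≤ δ l ∧ δ l ≤ 1) → Thin n B' →
    ∃ (V₁ : Mf n) (u' : V₁.X → V'.X) (κ₁ : Type) (_ : Fintype κ₁) (G₁ : κ₁ → Set V₁.X)
      (δ₁ : κ₁ → ℚ), (∃ B₁, Modif n u' B₁) ∧ (∃ B₁, Modif n (fun x => u (u' x)) B₁) ∧ Snc n G₁ ∧
      (∀ l, IsConnected (G₁ l)) ∧ (∀ l, 0 ≤ δ₁ l ∧ δ₁ l ≤ 1) ∧ (∀ l, δ₁ l = 1 ∨ δ₁ l = 0 ∨
        ∃ l', δ₁ l = δ l') ∧ LogM n (fun x => u (u' x)) G δ G₁ δ₁ ∧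
      (∀ x ∈ off G₁, u' x ∉ B') ∧ (V'.Kah → V₁.Kah)

/-- a log model can replace the fibration -/
def MODEL : Prop :=
  ∀ (n p : ℕ) (M₁ M : Fb n p) u v, M.Ok → M₁.Ok → M₁.Sq M u v → M₁.Le M

/-- base change by a modification -/
def BC : Prop :=
  ∀ (n p : ℕ) (M : Fb n p) (Y₁ : Mf p) (v : Y₁.X → M.Y.X) (B : Set M.Y.X), M.Ok → Modif p v B →
    ∃ (X₁ : Mf n) (f₁ : X₁.X → Y₁.X) (κ₁ : Type) (_ : Fintype κ₁) (G₁ : κ₁ → Set X₁.X)
      (δ₁ : κ₁ → ℚ) (u : X₁.X → M.X.X), Fb.Ok ⟨X₁, Y₁, f₁, κ₁, G₁, δ₁⟩ ∧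
      Fb.Sq ⟨X₁, Y₁, f₁, κ₁, G₁, δ₁⟩ M u v ∧ (∀ l, IsConnected (G₁ l)) ∧
      (∀ l, δ₁ l = 1 ∨ δ₁ l = 0 ∨ ∃ l', δ₁ l = M.δ l') ∧ (M.X.Kah → Y₁.Kah → X₁.Kah)

/-- the image of a Kähler manifold has a Kähler modification -/
def KY : Prop :=
  ∀ (n p : ℕ) (V : Mf n) (Y : Mf p) (f : V.X → Y.X), ConnectedSpace V.X → V.Kah → HolM n p f →
    Function.Surjective f → ∃ (Y₁ : Mf p) (v : Y₁.X → Y.X) (B : Set Y.X), Modif p v B ∧ Y₁.Kah

/-- direct images: finite type, and base change off a thin analytic set -/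
def GR : Prop :=
  ∀ (n p : ℕ) (V : Mf n) (Y : Mf p) (f : V.X → Y.X) (L : Bd V.X) (κ : Type) [Fintype κ]
    (G : κ → Set V.X) (c : κ → ℝ), ConnectedSpace Y.X → HolM n p f → IsLB n L → Snc n G →
    ∃ (S : Set Y.X) (ρ : ℕ), Thin p S ∧ (∀ y ∉ S, RegAt n p f G y) ∧ ∀ y₀, ∃ (U : Set Y.X) (k : ℕ)
      (s : Fin k → L.ι → V.X → ℂ), IsOpen U ∧ y₀ ∈ U ∧ (∀ j, SecP n n id (f ⁻¹' U) L G c (s j)) ∧
      (∀ U', IsOpen U' → ∀ t, SecP n n id (f ⁻¹' U') L G c t → ∀ y ∈ U ∩ U',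
        ∃ a : Fin k → Y.X → ℂ, (∀ j, Hol p (a j) y) ∧ ∀ᶠ y' in 𝓝 y, ∀ x ∈ off G, f x = y' →
          ∀ b, x ∈ L.U b → t b x = ∑ j, a j y' * s j b x) ∧
      ∀ y ∈ U, y ∉ S → (∀ (d : ℕ) (F : Mf d) (i : F.X → V.X), Emb d n i (f ⁻¹' {y}) →
        ∀ t, SecP d n i univ (pull i L) G c t → ∃ a : Fin k → ℂ, ∀ x, i x ∈ off G →
          ∀ b, i x ∈ L.U b → t b x = ∑ j, a j * s j b (i x)) ∧
        Module.finrank ℂ (LinearMap.ker (LinearMap.pi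
          fun q : {q : L.ι × V.X // q.2 ∈ L.U q.1 ∧ q.2 ∈ off G ∧ f q.2 = y} =>
            (∑ j, s j q.1.1 q.1.2 • LinearMap.proj j : (Fin k → ℂ) →ₗ[ℂ] ℂ))) + ρ = k

/-- sections on very general fibres extend, after a twist by an ample line bundle of the base -/
def START : Prop :=
  ∀ (n r : ℕ) (V : Mf n) (Z : Mf r) (γ : V.X → Z.X) (A : Bd Z.X) (L : Bd V.X) (κ : Type)
    [Fintype κ] (G : κ → Set V.X) (c : κ → ℝ), ConnectedSpace Z.X → HolM n r γ → IsLB r A →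
    Pos r A → IsLB n L → Snc n G → ∃ S, Neg r S ∧ ∀ z ∉ S, ∀ (d : ℕ) (F : Mf d) (i : F.X → V.X),
      Emb d n i (γ ⁻¹' {z}) → ∀ t, SecP d n i univ (pull i L) G c t → ∃ a₀ : ℕ, ∀ a ≥ a₀,
        ∀ b, z ∈ A.U b → ∃ s, SecP n n id univ (L.mul (pull γ (A.pow a))) G c s ∧
          ∀ x j, i x ∈ off G → i x ∈ L.U j → s (j, b) (i x) = t j x

/-! ### The main blocks -/

/-- `K_(W/Z) + Δ + ε A` is effective if `K + Δ` is effective on the fibres -/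
def U1 : Prop :=
  ∀ (w r : ℕ) (W : Mf w) (Z : Mf r) (γ : W.X → Z.X) (A : Bd Z.X) (κ : Type) [Fintype κ]
    (G : κ → Set W.X) (δ : κ → ℚ), ConnectedSpace W.X → W.Kah → HolM w r γ →
    Function.Surjective γ → IsLB r A → Pos r A → Snc w G → (∀ l, 0 ≤ δ l ∧ δ l ≤ 1) →
    (∃ d, Oft w r γ d fun F i => KapL d w i (Bd.can d F.X) G (fun l => δ l) 0) →
    ∀ q : ℕ, 0 < q → KapL w w id
      (lin ![Bd.can w W.X, pull γ (Bd.can r Z.X), pull γ A] ![q, -q, 1]) G (fun l => q * δ l) 0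

/-- fibres of log general type, klt along the horizontal components -/
def III : Prop :=
  ∀ (w p a : ℕ) (M : Fb w p), w = p + a → M.Ok → M.X.Kah → M.Y.Kah →
    (∀ l, M.δ l = 1 → ∃ S, Thin p S ∧ M.f '' M.G l ⊆ S) → M.Fib a a →
    ∀ k, M.Tau k → M.Kap (a + k)

/-- the relative Iitaka fibration -/
def R1 : Prop :=
  ∀ (n p d a : ℕ) (M : Fb n p), n = p + d → M.Ok → M.X.Kah → M.Y.Kah → M.Fib d a →
    ¬ M.Fib d (a + 1) → ∃ (e m : ℕ) (T : Tw n (p + a) p), T.One e a m ∧ T.fb.Le M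

/-- the canonical bundle formula, and the bigness of `K_Z + c M` -/
def PK : Prop :=
  ∀ (n w p e a m : ℕ) (T : Tw n w p), T.One e a m → ∃ (r : ℕ) (P : GP w p r), P.Ok a ∧
    (∀ j, P.Kap j → T.fb.Kap j) ∧ ∀ k, T.fb.Tau k → P.toFb.Tau k

/-- the generalized pair -/
def END : Prop :=
  ∀ (w p r a : ℕ) (P : GP w p r), P.Ok a → ∀ k, P.toFb.Tau k → P.Kap (a + k)

/-- the rank is at most the dimension -/
def DIM : Prop := ∀ (n p d a : ℕ) (M : Fb n p), M.Fib d a → a ≤ d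

/-- the inequality over a Kähler base -/
def COREK : Prop :=
  ∀ (n p d : ℕ) (M : Fb n p), n = p + d → M.Ok → M.X.Kah → M.Y.Kah →
    ∀ a k, M.Fib d a → M.Tau k → M.Kap (a + k)

/-- the inequality for a Kähler total space -/
def CORE : Prop :=
  ∀ (n p d : ℕ) (M : Fb n p), n = p + d → M.Ok → M.X.Kah →
    ∀ a k, M.Fib d a → M.Tau k → M.Kap (a + k)

/-- `κ ≥ j'` implies `κ ≥ j` for `j ≤ j'` -/
def MONO : Prop := ∀ (n p : ℕ) (M : Fb n p) (j j' : ℕ), j ≤ j' → M.Kap j' → M.Kap j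

theorem coreK_of (h1 : R1) (h2 : PK) (h3 : END) (h4 : DIM) (h5 : MONO) : COREK := by
  intro n p d M hn hM hX hY a k ha hk
  classical
  have hex : ∃ a', a ≤ a' ∧ M.Fib d a' ∧ ¬ M.Fib d (a' + 1) := by
    by_contra hc
    have key : ∀ j, M.Fib d (a + j) := by
      intro j
      induction j with
      | zero => exact ha
      | succ j ih =>
        by_contra hj
        exact hc ⟨a + j, Nat.le_add_right _ _, ih, hj⟩
    have := h4 n p d _ M (key (d + 1))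
    omega
  obtain ⟨a', h6, h7, h8⟩ := hex
  obtain ⟨e, m, T, hT, hle⟩ := h1 n p d a' M hn hM hX hY h7 h8
  obtain ⟨r, P, hP, k1, k2⟩ := h2 n (p + a') p e a' m T hT
  exact h5 n p M _ _ (Nat.add_le_add_right h6 k)
    (hle.kap _ (k1 _ (h3 _ p r a' P hP k (k2 k (hle.tau k hk)))))

theorem core_of (h1 : KY) (h2 : BC) (h3 : MODEL) (h4 : COREK) : CORE := by
  intro n p d M hn hM hX a k ha hk
  obtain ⟨Y₁, v, B, hv, hY⟩ := h1 n p M.X M.Y M.f hM.conn hX hM.fibn.hol hM.fibn.surj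
  obtain ⟨X₁, f₁, κ₁, _, G₁, δ₁, u, k1, k2, -, -, k3⟩ := h2 n p M Y₁ v B hM hv
  have hle := h3 n p _ M u v hM k1 k2
  exact hle.kap _ (h4 n p d _ hn k1 (k3 hX hY) hY a k ((hle.fib d a).1 ha) (hle.tau k hk))

end Vale.Agent.P281Z
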