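import Vale.Agent.P277Z.Slc.Defs
import Vale.Agent.P277Z.Hir.Out

/-!
# P281Z: the common language (compact manifolds, analytic sets, sections with poles, models)
-/

open scoped Manifold ContDiff Topology ComplexOrder
open Set Filter
open Vale.Agent.P272.K Vale.Agent.P285.H281.FD
open Vale.Agent.P277Z (Hol Mer gen)
open Vale.Agent.P277Z.Slc (lin Ind LEq Snc)
open Vale.Agent.P277Z.Hir (Cpb)
open Vale.Agent.P277.HD (pull)

noncomputable section

namespace Vale.Agent.P281Z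

/-- a compact complex manifold of dimension `n` (not necessarily connected) -/
structure Mf (n : ℕ) : Type 1 where
  X : Type
  [top : TopologicalSpace X]
  [t2 : T2Space X]
  [cpt : CompactSpace X]
  [ch : ChartedSpace (Cm n) X]
  [mf : IsManifold 𝓘(ℂ, Cm n) ω X]

attribute [instance] Mf.top Mf.t2 Mf.cpt Mf.ch Mf.mf

instance Mf.sc {n : ℕ} (V : Mf n) : SecondCountableTopology V.X :=
  ChartedSpace.secondCountable_of_sigmaCompact (Cm n) V.X

/-- there is a Kähler metric -/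
def Mf.Kah {n : ℕ} (V : Mf n) : Prop :=
  ∃ w : Chart n V.X → Cm n → Matrix (Fin n) (Fin n) ℂ, IsKahler w

section one

variable (n : ℕ) {X : Type} [TopologicalSpace X] [ChartedSpace (Cm n) X]

/-- `B` is a closed analytic set -/
def An (B : Set X) : Prop :=
  ∀ x, ∃ (k : ℕ) (g : Fin k → X → ℂ), (∀ i, Hol n (g i) x) ∧ ∀ᶠ y in 𝓝 x, y ∈ B ↔ ∀ i, g i y = 0

/-- `B` is a nowhere dense closed analytic set -/
def Thin (B : Set X) : Prop := An n B ∧ Dense Bᶜ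

/-- `S` is contained in countably many nowhere dense closed analytic sets -/
def Neg (S : Set X) : Prop := ∃ H : ℕ → Set X, (∀ k, Thin n (H k)) ∧ S ⊆ ⋃ k, H k

/-- `S` is a locally closed submanifold of dimension `d` -/
def SubM (d : ℕ) (S : Set X) : Prop :=
  ∀ x ∈ S, ∃ (c : ℕ) (h : Fin c → X → ℂ), d + c = n ∧ Ind n h x ∧
    ∀ᶠ y in 𝓝 x, y ∈ S ↔ ∀ a, h a y = 0

/-- `L` has a metric with positive curvature -/
def Pos (L : Bd X) : Prop :=
  ∃ ψ, IsMet n L ψ ∧ ∀ i (e : Chart n X) x, At e x → x ∈ L.U i →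
    (cHess (fun z => ψ i (e.symm z)) (e x)).PosDef

/-- `L` is generated by its sections -/
def Bpf (L : Bd X) : Prop := ∀ x, ∃ s, IsSec n L s ∧ NZ L s x

/-- the map `(s 1 / s 0, ..., s j / s 0)` has rank `j` at a point of `O` -/
def Rk (O : Set X) (L : Bd X) {j : ℕ} (s : Fin (j + 1) → L.ι → X → ℂ) : Prop :=
  ∃ x ∈ O, ∃ a, x ∈ L.U a ∧ s 0 a x ≠ 0 ∧
    Ind n (fun (b : Fin j) y => s b.succ a y / s 0 a y) x

variable (X) in
/-- local families of holomorphic functions whose sizes are comparable on the overlaps -/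
structure Idl where
  Γ : Type
  U : Γ → Set X
  k : Γ → ℕ
  g : ∀ γ, Fin (k γ) → X → ℂ
  isOpen : ∀ γ, IsOpen (U γ)
  cover : ∀ x, ∃ γ, x ∈ U γ
  hol : ∀ γ i, ∀ x ∈ U γ, Hol n (g γ i) x
  cpb : ∀ γ γ', ∀ x ∈ U γ, x ∈ U γ' →
    Cpb (𝓝 x) (fun y => ∑ i, ‖g γ i y‖) fun y => ∑ i, ‖g γ' i y‖

variable {n} in
/-- the zero set -/
def Idl.Z (I : Idl n X) : Set X := {x | ∀ γ, x ∈ I.U γ → ∀ i, I.g γ i x = 0}

/-- the complement of the divisors -/
def off {κ : Type} (G : κ → Set X) : Set X := {x | ∀ l, x ∉ G l}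

end one

section two

variable (n p : ℕ) {X Y : Type} [TopologicalSpace X] [ChartedSpace (Cm n) X] [TopologicalSpace Y]
  [ChartedSpace (Cm p) Y]

/-- `f` is holomorphic -/
def HolM (f : X → Y) : Prop := ContMDiff 𝓘(ℂ, Cm n) 𝓘(ℂ, Cm p) ω f

variable {n p} in
/-- the differential of `f` at `x` in the charts `e`, `e'` -/
def df (f : X → Y) (e : Chart n X) (e' : Chart p Y) (x : X) : Cm n →L[ℂ] Cm p :=
  fderiv ℂ (fun z => e' (f (e.symm z))) (e x)

variable {n p} in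
/-- a minor of order `p` of `df` -/
def minor (f : X → Y) (e : Chart n X) (e' : Chart p Y) (I : Fin p → Fin n) (x : X) : ℂ :=
  (Matrix.of fun a b : Fin p => df f e e' x (Pi.single (I b) 1) a).det

/-- `f` is a submersion at `x` -/
def Sbm (f : X → Y) (x : X) : Prop :=
  ∀ (e : Chart n X) (e' : Chart p Y), At e x → At e' (f x) → Function.Surjective (df f e e' x)

/-- `f` is an immersion at `x` -/
def Imm (f : X → Y) (x : X) : Prop :=
  ∀ (e : Chart n X) (e' : Chart p Y), At e x → At e' (f x) → Function.Injective (df f e e' x)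

/-- `i` is a holomorphic embedding with the image `S` -/
structure Emb (i : X → Y) (S : Set Y) : Prop where
  hol : HolM n p i
  inj : Function.Injective i
  imm : ∀ x, Imm n p i x
  rng : range i = S

/-- `π` is an isomorphism from the dense open set `X - π⁻¹ B` onto `A - B` -/
structure Over (π : X → Y) (A B : Set Y) : Prop where
  hol : HolM n p π
  maps : ∀ x, π x ∈ A
  dense : Dense (π ⁻¹' B)ᶜ
  one : ∀ y ∈ A, y ∉ B → ∃! x, π x = y
  imm : ∀ x, π x ∉ B → Imm n p π x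

/-- `f` is holomorphic and onto, and its general fibres are connected -/
structure Fibn (f : X → Y) : Prop where
  hol : HolM n p f
  surj : Function.Surjective f
  conn : ∃ S, Thin p S ∧ ∀ y ∉ S, IsConnected (f ⁻¹' {y})

/-- the pull back of `I` is comparable with a monomial in the local equations of the `E l` -/
def Prin (π : X → Y) (I : Idl p Y) {κ : Type} [Fintype κ] (E : κ → Set X) : Prop :=
  ∀ x γ, π x ∈ I.U γ → ∀ ζ : κ → X → ℂ, (∀ l, LEq n (E l) x (ζ l)) → ∃ a : κ → ℕ,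
    Cpb (𝓝 x) (fun y => ∑ i, ‖I.g γ i (π y)‖) fun y => ‖∏ l, ζ l y ^ a l‖

/-- `s` is, over `O`, a section of `L + i^* (∑ c l • G l)` (rounded down) -/
structure SecP (i : X → Y) (O : Set X) (L : Bd X) {κ : Type} [Fintype κ] (G : κ → Set Y)
    (c : κ → ℝ) (s : L.ι → X → ℂ) : Prop where
  hol : ∀ a, ∀ x ∈ O, x ∈ L.U a → i x ∈ off G → Hol n (s a) x
  chg : ∀ a b, ∀ x ∈ O, x ∈ L.U a → x ∈ L.U b → i x ∈ off G → s a x = L.g a b x * s b x
  bd : ∀ a, ∀ x ∈ O, x ∈ L.U a → ∀ ζ : κ → Y → ℂ, (∀ l, LEq p (G l) (i x) (ζ l)) →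
    ∃ C : ℝ, ∀ᶠ y in 𝓝 x, i y ∈ off G → ‖s a y‖ * ∏ l, ‖ζ l (i y)‖ ^ c l ≤ C

/-- `m (L + i^* (∑ c l • G l))` has sections whose ratios have rank `j` -/
def KapM (i : X → Y) (L : Bd X) {κ : Type} [Fintype κ] (G : κ → Set Y) (c : κ → ℝ) (m j : ℕ) :
    Prop :=
  ∃ s : Fin (j + 1) → (L.pow m).ι → X → ℂ,
    (∀ b, SecP n p i univ (L.pow m) G (fun l => m * c l) (s b)) ∧ Rk n (i ⁻¹' off G) (L.pow m) s

/-- `κ(X, L + i^* (∑ c l • G l)) ≥ j` -/
def KapL (i : X → Y) (L : Bd X) {κ : Type} [Fintype κ] (G : κ → Set Y) (c : κ → ℝ) (j : ℕ) :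
    Prop :=
  ∃ m, 0 < m ∧ KapM n p i L G c m j

/-- `τ` is a meromorphic `m`-canonical form on `Y`, holomorphic off `Q`, whose pull back by `f` is a
tensor with poles at most `∑ c l • G l` -/
structure TB (f : X → Y) {κ : Type} [Fintype κ] (G : κ → Set X) (c : κ → ℝ) (m : ℕ) (Q : Set Y)
    (τ : Chart p Y → Y → ℂ) : Prop where
  hol : ∀ e y, At e y → y ∉ Q → Hol p (τ e) y
  mer : ∀ e y, At e y → Mer p (τ e) y
  chg : ∀ e e' y, At e y → At e' y → y ∉ Q → τ e y = (jacM e e' y).det ^ m * τ e' y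
  bd : ∀ x (e : Chart n X) e', At e x → At e' (f x) → ∀ ζ : κ → X → ℂ,
    (∀ l, LEq n (G l) x (ζ l)) → ∀ I : Fin p → Fin n, ∃ C : ℝ, ∀ᶠ y in 𝓝 x, f y ∉ Q → y ∈ off G →
      ‖τ e' (f y)‖ * ‖minor f e e' I y‖ ^ m * ∏ l, ‖ζ l y‖ ^ c l ≤ C

/-- the fibres of dimension `d` with the property `P` are not negligible -/
def Oft (f : X → Y) (d : ℕ) (P : ∀ F : Mf d, (F.X → X) → Prop) : Prop :=
  ¬ Neg p {y | ∃ (F : Mf d) (i : F.X → X), Emb d n i (f ⁻¹' {y}) ∧ P F i}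

end two

section mod

variable (n : ℕ) {X X₁ : Type} [TopologicalSpace X] [ChartedSpace (Cm n) X] [TopologicalSpace X₁]
  [ChartedSpace (Cm n) X₁]

/-- `u` is a modification, an isomorphism over the complement of `B` -/
def Modif (u : X₁ → X) (B : Set X) : Prop := Thin n B ∧ Over n n u univ B

/-- `(G₁, δ₁)` is the strict transform of `(G, δ)` plus the exceptional divisors with the
coefficient one (plus other divisors with the coefficient zero) -/
structure LogM (u : X₁ → X) {κ κ₁ : Type} [Fintype κ] [Fintype κ₁] (G : κ → Set X) (δ : κ → ℚ)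
    (G₁ : κ₁ → Set X₁) (δ₁ : κ₁ → ℚ) : Prop where
  sub : ∀ x ∈ off G₁, u x ∈ off G
  exc : ∀ x, ¬ Imm n n u x → ∃ l, δ₁ l = 1 ∧ x ∈ G₁ l
  iso : ∀ x, Imm n n u x → ∀ (ζ : κ → X → ℂ) (ζ₁ : κ₁ → X₁ → ℂ), (∀ l, LEq n (G l) (u x) (ζ l)) →
    (∀ l, LEq n (G₁ l) x (ζ₁ l)) → Cpb (𝓝 x ⊓ 𝓟 (off G₁))
      (fun y => ∏ l, ‖ζ l (u y)‖ ^ (δ l : ℝ)) fun y => ∏ l, ‖ζ₁ l y‖ ^ (δ₁ l : ℝ)

end mod

/-- `f : (X, ∑ δ l • G l) → Y` -/
structure Fb (n p : ℕ) : Type 1 where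
  X : Mf n
  Y : Mf p
  f : X.X → Y.X
  κ : Type
  [fin : Fintype κ]
  G : κ → Set X.X
  δ : κ → ℚ

attribute [instance] Fb.fin

namespace Fb

variable {n p : ℕ} (M : Fb n p)

/-- a fibration with a rational SNC boundary -/
structure Ok : Prop where
  conn : ConnectedSpace M.X.X
  fibn : Fibn n p M.f
  snc : Snc n M.G
  bdry : ∀ l, 0 ≤ M.δ l ∧ M.δ l ≤ 1

/-- `κ(X, K + Δ) ≥ j` -/
def Kap (j : ℕ) : Prop := KapL n n id (Bd.can n M.X.X) M.G (fun l => M.δ l) j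

/-- `κ(F, K + Δ) ≥ a` for a non negligible set of fibres `F` -/
def Fib (d a : ℕ) : Prop :=
  Oft n p M.f d fun F i => KapL d n i (Bd.can d F.X) M.G (fun l => M.δ l) a

/-- the saturation of `f^* K_Y` in the orbifold tensors has dimension `≥ k` -/
def Tau (k : ℕ) : Prop :=
  ∃ (m : ℕ) (Q : Set M.Y.X) (τ : Fin (k + 1) → Chart p M.Y.X → M.Y.X → ℂ), 0 < m ∧ Thin p Q ∧
    (∀ b, TB n p M.f M.G (fun l => m * M.δ l) m Q (τ b)) ∧ Rk p Qᶜ ((Bd.can p M.Y.X).pow m) τ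

/-- `M₁` can replace `M` -/
structure Le (M₁ M : Fb n p) : Prop where
  kap : ∀ j, M₁.Kap j → M.Kap j
  tau : ∀ k, M.Tau k → M₁.Tau k
  fib : ∀ d a, M.Fib d a ↔ M₁.Fib d a

/-- `M₁` is a log model of `M` -/
structure Sq (M₁ M : Fb n p) (u : M₁.X.X → M.X.X) (v : M₁.Y.X → M.Y.X) : Prop where
  mu : ∃ B, Modif n u B
  mv : ∃ B, Modif p v B
  comm : ∀ x, M.f (u x) = v (M₁.f x)
  log : LogM n u M.G M.δ M₁.G M₁.δ

end Fb

/-- `(X, Δ) → W → Y` -/
structure Tw (n w p : ℕ) : Type 1 extends Fb n w where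
  B : Mf p
  h : Y.X → B.X

namespace Tw

variable {n w p : ℕ} (T : Tw n w p)

/-- the composed fibration -/
def fb : Fb n p := ⟨T.X, T.B, fun x => T.h (T.f x), T.κ, T.G, T.δ⟩

/-- the relative Iitaka fibration given by `m (K + Δ)` -/
structure One (e a m : ℕ) : Prop where
  ok : T.toFb.Ok
  fibn : Fibn w p T.h
  kahX : T.X.Kah
  kahW : T.Y.Kah
  kahB : T.B.Kah
  dim : n = w + e ∧ w = p + a
  pos : 0 < m
  int : ∀ l, ∃ z : ℕ, m * T.δ l = z
  one : ∃ S, Thin w S ∧ ∀ y ∉ S, ∀ (F : Mf e) (i : F.X → T.X.X), Emb e n i (T.f ⁻¹' {y}) →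
    KapM e n i (Bd.can e F.X) T.G (fun l => T.δ l) m 0 ∧
      ¬ KapM e n i (Bd.can e F.X) T.G (fun l => T.δ l) m 1
  big : Oft n p T.fb.f (e + a) fun F i =>
    KapM (e + a) n i (Bd.can (e + a) F.X) T.G (fun l => T.δ l) m a

end Tw

/-- a generalized pair `(W, B + M) → Y`, with `N M` pulled back from the projective manifold `Z` -/
structure GP (w p r : ℕ) : Type 1 extends Fb w p where
  Z : Mf r
  γ : X.X → Z.X
  M : Bd Z.X
  A : Bd Z.X
  N : ℕ

namespace GP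

variable {w p r : ℕ} (P : GP w p r)

/-- `κ(W, K + B + M) ≥ j` -/
def Kap (j : ℕ) : Prop :=
  KapL w w id (((Bd.can w P.X.X).pow P.N).mul (pull P.γ P.M)) P.G (fun l => P.N * P.δ l) j

/-- `M` is nef, `K_Z + c M` is big, and `K + B + M` is big on the fibres -/
structure Ok (a : ℕ) : Prop where
  ok : P.toFb.Ok
  kahX : P.X.Kah
  kahY : P.Y.Kah
  dim : w = p + a
  hol : HolM w r P.γ
  surj : Function.Surjective P.γ
  lbM : IsLB r P.M
  lbA : IsLB r P.A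
  posA : Pos r P.A
  pos : 0 < P.N
  big : Oft w p P.f a fun F i => KapL a w i
    (((Bd.can a F.X).pow P.N).mul (pull (fun x => P.γ (i x)) P.M)) P.G (fun l => P.N * P.δ l) a
  nef : ∀ q, 0 < q → ∃ k, 0 < k ∧ Bpf r ((P.M.pow (q * k)).mul (P.A.pow k))
  theta : ∃ (N₀ c₀ : ℕ) (θ : (lin ![Bd.can r P.Z.X, P.M, P.A] ![N₀, c₀, -1]).ι → P.Z.X → ℂ),
    0 < N₀ ∧ IsSec r _ θ ∧ ∃ z, NZ _ θ z

end GP

end Vale.Agent.P281Z
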