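import Vale.Agent.P281Z.Top

/-!
# P281Z: Fujiki's class, and the final statement
-/

open Vale.Agent.P281 Vale.Agent.P281.H713.TZ.S
open Vale.Agent.P281.H511.Surf (IsFibration Q1)
open Vale.Agent.P281.H64.StatV (Kahler)
open scoped Manifold ContDiff

namespace Vale.Agent.P281Z.Top

/-- `X` is in Fujiki's class `𝒞`: it is the image of a compact Kähler manifold `V` (of any dimension)
under a holomorphic map. -/
def Fujiki (n : ℕ) (X : Type) [TopologicalSpace X] [ChartedSpace (Cm n) X] : Prop :=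
  ∃ (m : ℕ) (V : Type) (_ : TopologicalSpace V) (_ : ChartedSpace (Cm m) V) (g : V → X),
    T2Space V ∧ CompactSpace V ∧ IsManifold 𝓘(ℂ, Cm m) ω V ∧ Kahler m V ∧
      ContMDiff 𝓘(ℂ, Cm m) 𝓘(ℂ, Cm n) ω g ∧ Function.Surjective g

/-- Campana's conjecture, and the logarithmic form of Iitaka's conjecture -/
def Final2 : Prop :=
  ∀ (n p : ℕ) (X Y : Type) [TopologicalSpace X] [ChartedSpace (Cm n) X] [TopologicalSpace Y]
    [ChartedSpace (Cm p) Y] (f : X → Y) (Δ : Set X → ℝ), IsFibration (Cm n) (Cm p) f Δ →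
    Fujiki n X → VeryGen n p (n - p) f fun _ _ _ i => Q1 (Cm n) (Cm p) (Cm (n - p)) f Δ i ∧
      ∀ Γ : Set Y → ℝ, J.IsSNC (Cm p) Γ → (∀ x G, Γ G ≠ 0 → f x ∈ G → ∃ D, Δ D = 1 ∧ x ∈ D) →
        kodR (Cm n) (Cm (n - p)) i Δ + kodX (Cm p) Γ ≤ kodX (Cm n) Δ

end Vale.Agent.P281Z.Top
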