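import Vale.Agent.P281Z.Tp.Fin
import Vale.Agent.P281Z.Tp.Fuj
import Vale.Agent.P281Z.Ky.All
import Vale.Agent.P281Z.Ri.All0
import Vale.Agent.P281Z.Pk.All2
import Vale.Agent.P281Z.En.All
import Vale.Agent.P281Z.Gt.Fin
import Vale.Agent.P281Z.U1.Fin

/-!
# P281Z: the theorem
-/

namespace Vale.Agent.P281Z.All

theorem r1 : R1 := Ri.r1_res P277Z.Hir.stMain Rs.res genS rem logm Pk.model Pk.gr Pk.start

theorem fin : END := En.end_all Rs.res Pk.start genS Gt.iii U1.u1

theorem core : CORE := core_of Ky.ky bc Tp.model (coreK_of r1 Pk.pk fin dim mono)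

theorem final : Top.Final2 :=
  Tp.final2_of Ky.ky core Tp.model logm genS rem Nt.rego Nt.neatk (Nt.cstep_of Nt.genc)

end Vale.Agent.P281Z.All
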