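import Vale.Agent.P281Z.Top2
import Vale.Agent.P277.Defs

/-!
# P281Z: Fujiki's class, by compact Kähler spaces
-/

open Set Filter
open Vale.Agent.P281 Vale.Agent.P281.H713.TZ.S
open Vale.Agent.P272.K (cHess)
open Vale.Agent.P277 (CSp IsModel IsReg)
open scoped Topology ContDiff ComplexOrder

namespace Vale.Agent.P281Z.Top

/-- Near `s` the function `u` is the restriction of a smooth strictly plurisubharmonic function under
a local embedding of the complex space `S`. -/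
def SPsh (S : CSp) (u : S.pt → ℝ) (s : S.pt) : Prop :=
  ∃ (N k : ℕ) (V : Set S.pt) (Ω : Set (Cm N)) (h : Fin k → Cm N → ℂ) (φ : S.pt → Cm N)
    (ψ : Cm N → ℝ), s ∈ V ∧ IsModel S.Hol V Ω h φ ∧
    (∀ z ∈ Ω, ContDiffAt ℝ ∞ ψ z ∧ (cHess ψ z).PosDef) ∧ ∀ y ∈ V, u y = ψ (φ y)

/-- The compact complex space `S` has pure dimension `m` and is Kähler: there are smooth strictly
plurisubharmonic functions on the members of an open cover, whose differences are pluriharmonic at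
the smooth points. -/
def KahSp (m : ℕ) (S : CSp) : Prop :=
  Dense {s | IsReg m S s} ∧ ∃ (ι : Type) (U : ι → Set S.pt) (u : ι → S.pt → ℝ),
    (∀ i, IsOpen (U i)) ∧ (∀ s, ∃ i, s ∈ U i) ∧ (∀ i, ∀ s ∈ U i, SPsh S (u i) s) ∧
    ∀ i j (g : Cm m → S.pt) z, P277.HolAt S g z → IsReg m S (g z) → g z ∈ U i → g z ∈ U j →
      cHess (fun w => u i (g w) - u j (g w)) z = 0

/-- `Γ` is an analytic subset of `S × X`. -/
def IsAnP (n : ℕ) (S : CSp) {X : Type} [TopologicalSpace X] [ChartedSpace (Cm n) X]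
    (Γ : Set (S.pt × X)) : Prop :=
  ∀ s x, ∃ (k l r : ℕ) (a : Fin k → S.pt → ℂ) (b : Fin l → X → ℂ) (F : Fin r → Cm k × Cm l → ℂ),
    (∀ i, S.Hol (a i) s) ∧ (∀ i, J.HolAt (Cm n) (b i) x) ∧
    (∀ j, AnalyticAt ℂ (F j) (fun i => a i s, fun i => b i x)) ∧
    ∀ᶠ q in 𝓝 (s, x), q ∈ Γ ↔ ∀ j, F j (fun i => a i q.1, fun i => b i q.2) = 0

/-- `X` is in Fujiki's class `𝒞`: there are a compact Kähler space `S` and a dominant meromorphic
map (for instance, a bimeromorphic map) from `S` to `X`, that is, a map `τ` which is holomorphic off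
a nowhere dense analytic subset `Z` of `S` and has a dense image, the closure of whose graph is an
analytic subset of `S × X`. -/
def InC (n : ℕ) (X : Type) [TopologicalSpace X] [ChartedSpace (Cm n) X] : Prop :=
  ∃ (m : ℕ) (S : CSp) (Z : Set S.pt) (τ : S.pt → X), KahSp m S ∧
    P277.IsAn S univ Z ∧ Dense Zᶜ ∧
    (∀ s ∉ Z, ContinuousAt τ s ∧ ∀ g, J.HolAt (Cm n) g (τ s) → S.Hol (g ∘ τ) s) ∧
    Dense (τ '' Zᶜ) ∧ IsAnP n S (closure {q : S.pt × X | q.1 ∉ Z ∧ q.2 = τ q.1})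

end Vale.Agent.P281Z.Top
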