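import Vale.Agent.P281Z.All
import Vale.Agent.P281Z.El.All
import Vale.Agent.P281Z.Tp.Spc

/-!
# P281Z: a manifold of class `𝒞` is the image of a compact Kähler manifold
-/

open Vale.Agent.P281.H713.TZ.S
open Vale.Agent.P281.H511.Surf (IsFibration)

namespace Vale.Agent.P281Z.All

theorem fujiki {n p : ℕ} {X Y : Type} [TopologicalSpace X] [ChartedSpace (Cm n) X]
    [TopologicalSpace Y] [ChartedSpace (Cm p) Y] {f : X → Y} {Δ : Set X → ℝ}
    (hf : IsFibration (Cm n) (Cm p) f Δ) (hX : Top.InC n X) : Top.Fujiki n X :=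
  have := hf.hausdorff.1
  have := hf.compact
  have := hf.manifold.1
  Tp.fujiki_of P277Z.Hir.stMain El.elim ⟨X⟩ hX

end Vale.Agent.P281Z.All
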