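import Vale.Agent.P281Z.Top2

/-!
# P281Z: Fujiki's class, by meromorphic maps
-/

open Set Filter
open Vale.Agent.P281.H713.TZ.S
open Vale.Agent.P281.H64.StatV (Kahler)
open scoped Manifold ContDiff Topology

namespace Vale.Agent.P281Z.Top

/-- `S` is an analytic subset of the complex manifold `M`: near every point of `M` it is the set of
the common zeros of finitely many holomorphic functions. -/
def IsAn {E H : Type} [NormedAddCommGroup E] [NormedSpace ℂ E] [TopologicalSpace H]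
    (I : ModelWithCorners ℂ E H) {M : Type} [TopologicalSpace M] [ChartedSpace H M] (S : Set M) :
    Prop :=
  ∀ z, ∃ (k : ℕ) (g : Fin k → M → ℂ), (∀ a, ContMDiffAt I 𝓘(ℂ, ℂ) ω (g a) z) ∧
    ∀ᶠ w in 𝓝 z, w ∈ S ↔ ∀ a, g a w = 0

/-- `X` is in Fujiki's class `𝒞`: there are a compact Kähler manifold `V` and a dominant meromorphic
map (for instance, a bimeromorphic map) from `V` to `X`, that is, a map `τ` which is holomorphic off a
nowhere dense analytic subset `Z` of `V` and has a dense image, the closure of whose graph is an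
analytic subset of `V × X`. -/
def ClassF (n : ℕ) (X : Type) [TopologicalSpace X] [ChartedSpace (Cm n) X] : Prop :=
  ∃ (m : ℕ) (V : Type) (_ : TopologicalSpace V) (_ : ChartedSpace (Cm m) V) (Z : Set V) (τ : V → X),
    T2Space V ∧ CompactSpace V ∧ IsManifold 𝓘(ℂ, Cm m) ω V ∧ Kahler m V ∧
      IsAn 𝓘(ℂ, Cm m) Z ∧ Dense Zᶜ ∧ (∀ v ∉ Z, ContMDiffAt 𝓘(ℂ, Cm m) 𝓘(ℂ, Cm n) ω τ v) ∧
      Dense (τ '' Zᶜ) ∧
      IsAn (𝓘(ℂ, Cm m).prod 𝓘(ℂ, Cm n)) (closure {z : V × X | z.1 ∉ Z ∧ z.2 = τ z.1})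

end Vale.Agent.P281Z.Top
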