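import Vale.Agent.P281.H303.TC.Stat

/-!
# P281Z: the final statement
-/

open Set Filter
open Vale.Agent.P281 Vale.Agent.P281.H713.TZ.S
open Vale.Agent.P281.H511.Surf (IsFibration IsFibre Q1)
open Vale.Agent.P281.H303.StatC (ClassC)
open Vale.Agent.P281.H64.TW (HasNeatModel)
open scoped Manifold ContDiff Topology

noncomputable section

namespace Vale.Agent.P281Z.Top

/-- `S` is a proper analytic subset of `Y`: near every point of `Y` it is the set of the common
zeros of finitely many holomorphic functions, and it is not `Y`. -/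
def IsProperAn (p : ℕ) {Y : Type} [TopologicalSpace Y] [ChartedSpace (Cm p) Y] (S : Set Y) : Prop :=
  S ≠ univ ∧ ∀ y, ∃ (k : ℕ) (g : Fin k → Y → ℂ), (∀ a, J.HolAt (Cm p) (g a) y) ∧
    ∀ᶠ z in 𝓝 y, z ∈ S ↔ ∀ a, g a z = 0

/-- `i : F → X` is a holomorphic embedding of the compact connected complex manifold `F` onto the
fibre of `f` over `y`. -/
def IsFib (n d : ℕ) {X Y F : Type} [TopologicalSpace X] [ChartedSpace (Cm n) X]
    [TopologicalSpace F] [ChartedSpace (Cm d) F] (f : X → Y) (y : Y) (i : F → X) : Prop :=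
  IsFibre (Cm n) (Cm d) f y i ∧ Function.Injective i ∧ range i = f ⁻¹' {y}

/-- The fibres over the points off countably many proper analytic subsets are manifolds of dimension
`d`, and have the property `P`. -/
def VeryGen (n p d : ℕ) {X Y : Type} [TopologicalSpace X] [ChartedSpace (Cm n) X]
    [TopologicalSpace Y] [ChartedSpace (Cm p) Y] (f : X → Y)
    (P : ∀ (F : Type) [TopologicalSpace F] [ChartedSpace (Cm d) F], (F → X) → Prop) : Prop :=
  ∃ H : ℕ → Set Y, (∀ k, IsProperAn p (H k)) ∧ ∀ y, (∀ k, y ∉ H k) →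
    (∃ (F : Type) (_ : TopologicalSpace F) (_ : ChartedSpace (Cm d) F) (i : F → X),
      IsFib n d f y i) ∧
    ∀ (F : Type) [TopologicalSpace F] [ChartedSpace (Cm d) F] (i : F → X), IsFib n d f y i → P F i

/-- the inequality with the saturation of `f^* K_Y` -/
def CoreS : Prop :=
  ∀ (p d : ℕ) (X Y : Type) [TopologicalSpace X] [ChartedSpace (Cm (p + d)) X] [TopologicalSpace Y]
    [ChartedSpace (Cm p) Y] (f : X → Y) (Δ : Set X → ℝ), IsFibration (Cm (p + d)) (Cm p) f Δ →
    ClassC (p + d) X → VeryGen (p + d) p d f fun _ _ _ i =>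
      kodR (Cm (p + d)) (Cm d) i Δ + kodF (p + d) p Δ (id : X → X) f ≤ kodX (Cm (p + d)) Δ

/-- neat models exist -/
def NEAT : Prop :=
  ∀ (n p : ℕ) (X Y : Type) [TopologicalSpace X] [ChartedSpace (Cm n) X] [TopologicalSpace Y]
    [ChartedSpace (Cm p) Y] (f : X → Y) (Δ : Set X → ℝ), IsFibration (Cm n) (Cm p) f Δ →
    HasNeatModel n p f Δ

/-- Campana's conjecture -/
def Final : Prop :=
  ∀ (p d : ℕ) (X Y : Type) [TopologicalSpace X] [ChartedSpace (Cm (p + d)) X] [TopologicalSpace Y]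
    [ChartedSpace (Cm p) Y] (f : X → Y) (Δ : Set X → ℝ), IsFibration (Cm (p + d)) (Cm p) f Δ →
    ClassC (p + d) X → VeryGen (p + d) p d f fun _ _ _ i => Q1 (Cm (p + d)) (Cm p) (Cm d) f Δ i

end Vale.Agent.P281Z.Top
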